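import Vale.Agent.P304.Glue

universe u

open Vale.Agent.P304 in
theorem Vale.Agent.Results.P304.PolyLog.result :
    ∃ C : ℝ, ∀ k : ℕ, 2 ≤ k → ∀ (X : Type u) [MetricSpace X] (s : Fin k → X),
      ∃ (A : Policy X k) (B : ℝ), ∀ σ : List X,
        ecost A s [] [] σ ≤ C * Real.log k ^ 4 * opt s σ + B :=
  main
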